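import Vale.Agent.P199K.LSApi

/-! The Laurent series type is defined in `LSer.lean`; the API is in `LSApi.lean`. -/
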